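import Vale.Agent.P095JS.All
import Vale.Agent.P095JS.Act
import Vale.Agent.P095JS.StmtAct
import Vale.Agent.P095JS.Side095
import Vale.Agent.P095.H628.Stmt

/-! The Jiang-Su algebra `Z` exists, and every action of a countable amenable group on a separable,
simple, nuclear, `Z`-stable C*-algebra is equivariantly `Z`-stable. -/

open scoped TensorProduct

namespace Vale.Agent.Results.P095.ConjectureA

open Vale.Agent.P095 Vale.Agent.P095K Vale.Agent.P095R Vale.Agent.P101 Vale.Agent.P095.H628
open Vale.Agent.JS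

universe u w

/-- (1) There is an algebra `Z` with all the properties of the Jiang-Su algebra, and these
properties determine it.
(2) Tensor products with `Z`, and the actions `α ⊗ id`, exist.
(3) Let `A` be separable, simple and nuclear. Then `A` is isomorphic to `A ⊗ Z` if and only if its
central sequence algebra has no characters, and if this is so, then every action `α` of every
countable amenable group on `A` is cocycle conjugate to `α ⊗ id`. -/
theorem result : ∃ (Z : Type u) (_ : CStarAlgebra Z),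
    (IsJiangSuZ Z ∧ ∀ (Z' : Type u) [CStarAlgebra Z'], IsJiangSuZ Z' → Nonempty (Z ≃⋆ₐ[ℂ] Z')) ∧
    ∀ (A : Type u) [NonUnitalCStarAlgebra A],
      (∃ (B : Type u) (_ : NonUnitalCStarAlgebra B) (T : A →ₗ[ℂ] Z →ₗ[ℂ] B),
        IsTensorProd T ∧ HasTensorActions.{u, w} T) ∧
      (TopologicalSpace.SeparableSpace A → IsSimpleAlg A → IsNuclearAlg A →
        ∀ (B : Type u) [NonUnitalCStarAlgebra B] (T : A →ₗ[ℂ] Z →ₗ[ℂ] B), IsTensorProd T →
          (Nonempty (A ≃⋆ₐ[ℂ] B) ↔ NoCentralCharacters A) ∧
          (Nonempty (A ≃⋆ₐ[ℂ] B) → AllActionsStable.{u, w} T)) := by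
  obtain ⟨Z, _, hZ, -⟩ := exists_jiangSu Side095.absorption
  refine ⟨Z, inferInstance, ⟨hZ, fun Z' _ hZ' => hZ.unique Side095.absorption hZ'⟩,
    fun A _ => ⟨?_, fun hA hS hN B _ T hB =>
      ⟨zstable_iff hS hN hZ.limit hZ.absorbing T hB,
        fun hAB G _ _ hG α β hβ => general_conj hS hN hZ.limit hZ.absorbing T hB hAB hG α β hβ⟩⟩⟩
  obtain ⟨B, _, T, hT, hα⟩ := Act.exists_tensor_act.{u, w} A Z
  exact ⟨B, inferInstance, T, hT, hα⟩

end Vale.Agent.Results.P095.ConjectureA
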